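import Vale.Agent.P344.Main

/-! The discrete Fourier transform of every length `n` has linear circuits with
`O (n (log n) ^ (1 - 5 / 10 ^ 8))` gates, so the `n log n` lower bound fails. -/

namespace Vale.Agent.Results.P344.Sublog

open Vale.Agent.P344

theorem result :
    (∃ C : ℝ, ∀ n : ℕ, 2 ≤ n → ∃ c : Circuit n, c.Computes (dft n) ∧
      (c.gates.length : ℝ) ≤ C * n * Real.logb 2 n ^ (1 - 5 / 10 ^ 8 : ℝ)) ∧
    (∃ C : ℝ, ∀ n : ℕ, 2 ≤ n → (L n : ℝ) ≤ C * n * Real.logb 2 n ^ (1 - 5 / 10 ^ 8 : ℝ)) ∧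
    ¬ ∃ c : ℝ, 0 < c ∧ ∃ N : ℕ, ∀ n : ℕ, N ≤ n → c * n * Real.logb 2 n ≤ (L n : ℝ) :=
  ⟨circuit_bound, L_bound, not_lower⟩

end Vale.Agent.Results.P344.Sublog
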